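import Vale.Agent.P110.Main

namespace Vale.Agent.Results.P110.Ultraflat

open Vale.Agent.P110

/-- There is an ultraflat sequence of real Littlewood polynomials, one for every length `N`. -/
theorem result : ∃ ε : ℕ → ℕ → ℤ, (∀ N k, ε N k = 1 ∨ ε N k = -1) ∧
    ∀ c : ℝ, 0 < c → ∃ N₀ : ℕ, ∀ N : ℕ, N₀ ≤ N → ∀ z : ℂ, ‖z‖ = 1 →
      |‖∑ k ∈ Finset.range N, (ε N k : ℂ) * z ^ k‖ / √(N : ℝ) - 1| ≤ c := by
  classical
  let good : ℕ → ℕ → (ℕ → ℤ) → Prop := fun N m s => (∀ k, s k = 1 ∨ s k = -1) ∧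
    ∀ z : ℂ, ‖z‖ = 1 → |‖∑ k ∈ Finset.range N, (s k : ℂ) * z ^ k‖ / √(N : ℝ) - 1| ≤ 1 / (m + 1)
  have h1 : ∀ m : ℕ, ∃ N0, ∀ N, N0 ≤ N → ∃ s, good N m s := by
    intro m
    obtain ⟨N0, h⟩ := flat_exists (c := 1 / (m + 1)) (by positivity)
    refine ⟨N0 + 1, fun N hN => ?_⟩
    obtain ⟨s, h2, h3⟩ := h N (by omega)
    refine ⟨fun k => if s k = 1 then 1 else -1, fun k => by beta_reduce; split_ifs <;> simp,
      fun z hz => ?_⟩
    obtain ⟨x, rfl⟩ := exists_E hz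
    have e : ∑ k ∈ Finset.range N, (((if s k = 1 then 1 else -1 : ℤ)) : ℂ) * E x ^ k = TP N s x := by
      refine Finset.sum_congr rfl fun k _ => ?_
      rw [E_nat_mul]
      rcases h2 k with h | h
      · simp [h]
      · rw [h, if_neg (by norm_num)]; simp
    have hs : 0 < √(N : ℝ) := Real.sqrt_pos.2 (by exact_mod_cast (by omega : 0 < N))
    rw [e, div_sub_one hs.ne', abs_div, abs_of_pos hs, div_le_iff₀ hs]
    exact h3 x
  have h2 : ∀ N : ℕ, ∃ s : ℕ → ℤ, (∀ k, s k = 1 ∨ s k = -1) ∧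
      ∀ m, m ≤ N → (∃ s, good N m s) → ∃ m', m ≤ m' ∧ good N m' s := by
    intro N
    by_cases h : ∃ m, m ≤ N ∧ ∃ s, good N m s
    · obtain ⟨m0, hm0, h0⟩ := h
      obtain ⟨s, hs⟩ := Nat.findGreatest_spec (P := fun m => ∃ s, good N m s) hm0 h0
      exact ⟨s, hs.1, fun m hm h => ⟨_, Nat.le_findGreatest hm h, hs⟩⟩
    · exact ⟨fun _ => 1, fun _ => Or.inl rfl, fun m hm h' => absurd ⟨m, hm, h'⟩ h⟩
  choose ε hε1 hε2 using h2
  refine ⟨ε, hε1, fun c hc => ?_⟩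
  obtain ⟨m, hm⟩ := exists_nat_one_div_lt hc
  obtain ⟨N0, h⟩ := h1 m
  refine ⟨max N0 m, fun N hN z hz => ?_⟩
  obtain ⟨m', h3, h4⟩ := hε2 N m ((le_max_right _ _).trans hN) (h N ((le_max_left _ _).trans hN))
  refine (h4.2 z hz).trans (le_trans ?_ hm.le)
  have : (m : ℝ) ≤ m' := by exact_mod_cast h3
  gcongr

end Vale.Agent.Results.P110.Ultraflat
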